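import Vale.Agent.P011UT9.Der
import Vale.Agent.P011UT4.Defs
import Vale.Agent.P011UC.Rat

/-!
The rational form of the Lie algebra.
-/

set_option autoImplicit false
set_option linter.all false

namespace Vale.Agent.P011UT9

open Matrix Vale.Agent.P011L Vale.Agent.P183CH Vale.Agent.P183CH.Chev Vale.Agent.P011U
  Vale.Agent.P011UGA Vale.Agent.P011UT4 Vale.Agent.P011UC Vale.Agent.P011LD

variable {k K : Type} [Field k] [Field K] [Algebra k K] {D : Chev} {T : Tw k (D.grp K)}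

theorem tg_of {x : K → D.grp K} {M : D.Mat K} (h : Tan x M) : Tg x M :=
  ⟨h.1, fun i j => (h.2 i j).imp fun _ h => ⟨h.1, h.2.symm⟩⟩

theorem da_sm (σ : K ≃ₐ[k] K) : Sm σ (da T σ) := ⟨da_add T σ, da_smul T σ⟩

theorem map_sm (σ : K ≃ₐ[k] K) : Sm σ fun M : D.Mat K => M.map σ :=
  ⟨fun _ _ => Matrix.map_add _ (map_add σ) _ _, fun _ _ => Matrix.ext fun _ _ => map_mul σ _ _⟩

theorem ad_gg (g : D.grp K) : ∀ M ∈ gg D K, Ad g.1 M ∈ gg D K :=
  lie_ok D K _ GG_ok g (by rw [GG_ok.GJ_univ (R_ok D)]; trivial)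

/-- the simple roots and their negatives -/
def Sr (D : Chev) (δ : D.Q) : Prop := ∃ i, δ = D.R.α i ∨ δ = -D.R.α i

theorem Sr.mem {δ : D.Q} (h : Sr D δ) : δ ∈ D.R.Φ := by
  obtain ⟨i, rfl | rfl⟩ := h
  exacts [(R_ok D).simple i, (R_ok D).neg_mem ((R_ok D).simple i)]

theorem ee_gg {δ : D.Q} (h : δ ∈ D.R.Φ) : ee D K δ ∈ gg D K := lie_e (mem_Φ.1 h) (RS.In_univ _)

/-- the conjugates of the simple root vectors -/
def Gn (D : Chev) (K : Type) [Field K] : Set (D.Mat K) :=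
  {M | ∃ (y : D.grp K) (δ : D.Q), Sr D δ ∧ M = Ad y.1 (ee D K δ)}

theorem span_gn (hI : IRR) (hK : Nonempty (K →+* ℂ)) : Submodule.span K (Gn D K) = gg D K := by
  refine ((hI D K hK).2 _ (Submodule.span_le.2 ?_) (.inr fun g Y hY => ?_)).resolve_left fun e => ?_
  · rintro _ ⟨y, δ, h, rfl⟩
    exact ad_gg y _ (ee_gg h.mem)
  · refine (Sm.lin (Ad g.1)).ind _ ?_ hY
    rintro _ ⟨y, δ, h, rfl⟩
    exact Submodule.subset_span ⟨g * y, δ, h, (Ad_mul _ _ _).symm⟩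
  · have h : Sr D (D.R.α ⟨0, (R_ok D).pos⟩) := ⟨_, .inl rfl⟩
    have := Submodule.span_eq_bot.1 e _ ⟨1, _, h, rfl⟩
    exact one_ne_zero ((mem_Φ.1 h.mem).rh.prim.eq_zero (c := (1 : K)) (by simpa [Ad_apply] using this))

section

variable [Infinite K]

theorem da_mul (σ τ : K ≃ₐ[k] K) {M : D.Mat K} (h : M ∈ gg D K) :
    da T (σ * τ) M = da T σ (da T τ M) :=
  (da_sm (σ * τ)).ext ((da_sm σ).comp (da_sm τ)) (s := {M | ∃ x, Tan x M})
    (fun _ ⟨_, h⟩ => (tg_of h).da_mul T σ τ) (lie_TV h)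

theorem da_ad (σ : K ≃ₐ[k] K) (g : D.grp K) {M : D.Mat K} (h : M ∈ gg D K) :
    da T σ (Ad g.1 M) = Ad (T.a σ g).1 (da T σ M) :=
  ((da_sm σ).comp (.lin (Ad g.1))).ext ((Sm.lin (Ad (T.a σ g).1)).comp (da_sm σ))
    (s := {M | ∃ x, Tan x M}) (fun _ ⟨_, h⟩ => (tg_of h).da_conj T σ g) (lie_TV h)

theorem da_map {σ : K ≃ₐ[k] K} (e : ∀ g : D.grp K, (T.a σ g).1.1 = g.1.1.map σ) {M : D.Mat K}
    (h : M ∈ gg D K) : da T σ M = M.map σ :=
  (da_sm σ).ext (map_sm σ) (s := {M | ∃ x, Tan x M}) (fun _ ⟨_, h⟩ => (tg_of h).da_map T e)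
    (lie_TV h)

theorem da_ee {σ : K ≃ₐ[k] K} {γ δ : D.Q} {c : K} (a : γ ∈ D.R.Φ) (b : δ ∈ D.R.Φ)
    (e : ∀ u, T.a σ ((GG D K).x γ u) = (GG D K).x δ (c * σ u)) :
    da T σ (ee D K γ) = c • ee D K δ :=
  ((tg_of (tan_x' a)).act T σ).uniq (by
    simpa only [e, AlgEquiv.apply_symm_apply] using tg_of (tan_x b c))

theorem da_lie (h : Submodule.span K (Gn D K) = gg D K) (σ : K ≃ₐ[k] K) {M N : D.Mat K}
    (hM : M ∈ gg D K) (hN : N ∈ gg D K) :
    da T σ (M * N - N * M) = da T σ M * da T σ N - da T σ N * da T σ M := by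
  refine ((da_sm σ).comp (.lin (LinearMap.mulRight K N - LinearMap.mulLeft K N))).ext
    ((Sm.lin (LinearMap.mulRight K (da T σ N) - LinearMap.mulLeft K (da T σ N))).comp (da_sm σ))
    (s := Gn D K) ?_ (h ▸ hM)
  rintro _ ⟨y, δ, a, rfl⟩
  refine ((tg_of (tan_x' a.mem)).conj y).da_lie T
    (B := y.1.1 * ((-1 : K) • ee D K δ) * y.1⁻¹.1) ?_ σ fun y => da_ad σ y hN
  have e : ∀ s, (y * (GG D K).x δ s * y⁻¹).1⁻¹ = (y * (GG D K).x δ (-1 * s) * y⁻¹).1 := fun s => by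
    rw [← Subgroup.coe_inv, conj_inv, neg_one_mul, GG_ok.x_neg a.mem s]
  simpa only [e] using ((tg_of (tan_x a.mem (-1))).conj y).2

end

theorem Opw.sr {ε : _} {π : _} {d : _} (o : Opw T ε π d) (σ : K ≃ₐ[k] K) {δ : D.Q} (h : Sr D δ) :
    ∃ δ' c, Sr D δ' ∧ ∀ u, T.a σ ((GG D K).x δ u) = (GG D K).x δ' (c * σ u) := by
  obtain ⟨i, rfl | rfl⟩ := h <;> rcases Int.units_eq_one_or (ε σ) with e | e
  · exact ⟨_, 1, ⟨_, .inl rfl⟩, fun u => by rw [one_mul, (o.pos σ i u e).1]⟩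
  · exact ⟨_, _, ⟨_, .inr rfl⟩, fun u => (o.neg σ i u e).1⟩
  · exact ⟨_, 1, ⟨_, .inr rfl⟩, fun u => by rw [one_mul, (o.pos σ i u e).2]⟩
  · exact ⟨_, _, ⟨_, .inl rfl⟩, fun u => (o.neg σ i u e).2⟩

theorem Opw.std {ε : _} {π : _} {d : _} (o : Opw T ε π d) {σ : K ≃ₐ[k] K} (h : ε σ = 1)
    (h' : π σ = 1) (g : D.grp K) : (T.a σ g).1.1 = g.1.1.map σ := by
  have : (T.a σ).toMonoidHom = fm D (σ : K →+* K) := MonoidHom.eq_of_eqOn_dense GG_ok.gen (by
    rintro _ ⟨i, t, rfl | rfl⟩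
    · exact (o.pos σ i t h).1.trans (by rw [h', fm_x]; rfl)
    · exact (o.pos σ i t h).2.trans (by rw [h', fm_x]; rfl))
  exact congrArg (fun g : D.grp K => g.1.1) (DFunLike.congr_fun this g)

/-- Descent of the membership in a subspace. -/
theorem mem_of_map {F : Type} [Field F] (f : F →+* K) (U : Submodule F (D.Mat F)) {s : Set (D.Mat K)}
    (hs : ∀ Y ∈ s, ∃ X ∈ U, Y = X.map f) {X : D.Mat F} (h : X.map f ∈ Submodule.span K s) :
    X ∈ U := by
  by_contra hn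
  obtain ⟨φ, h1, h2⟩ := U.exists_dual_map_eq_bot_of_notMem hn inferInstance
  let ψ : D.Mat K →ₗ[K] K := ∑ a, ∑ b, f (φ (single a b 1)) • entryLinearMap K K a b
  have e : ∀ Z : D.Mat F, ψ (Z.map f) = f (φ Z) := fun Z => by
    conv_rhs => rw [matrix_eq_sum_single Z]
    simp only [ψ, map_sum, LinearMap.sum_apply, LinearMap.smul_apply, entryLinearMap_apply,
      map_apply, smul_eq_mul, ← map_mul]
    refine Finset.sum_congr rfl fun a _ => Finset.sum_congr rfl fun b _ => congrArg f ?_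
    rw [mul_comm, ← smul_eq_mul, ← map_smul, smul_single, smul_eq_mul, mul_one]
  have : ψ (X.map f) ∈ (⊥ : Submodule K K) := (Sm.lin ψ).ind _ (fun Y hY => by
    obtain ⟨Z, a, rfl⟩ := hs Y hY
    have := Submodule.mem_map_of_mem (f := φ) a
    rw [h2, Submodule.mem_bot] at this
    rw [e, this, map_zero]
    exact zero_mem _) h
  exact h1 ((map_eq_zero f).1 ((e X).symm.trans this))

theorem map_sum_smul {F : Type} [Field F] (f : F →+* K) {m : ℕ} (c : Fin m → F)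
    (b : Fin m → D.Mat F) : (∑ i, c i • b i).map f = ∑ i, f (c i) • (b i).map f :=
  Matrix.ext fun _ _ => by simp [Matrix.sum_apply]

theorem bs_of_map {F : Type} [Field F] (f : F →+* K) {m : ℕ} {b : Fin m → D.Mat F}
    (h : Bs (bm f b)) : Bs b := by
  refine ⟨Fintype.linearIndependent_iff.2 fun c hc i => (map_eq_zero f).1
    (Fintype.linearIndependent_iff.1 h.1 (fun i => f (c i)) ((map_sum_smul f c b).symm.trans
      (by rw [hc, Matrix.map_zero _ (map_zero f)])) i), le_antisymm (Submodule.span_le.2 ?_)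
    (Submodule.span_le.2 fun X hX => mem_of_map f _ (s := Set.range (bm f b)) ?_ ?_)⟩
  · rintro _ ⟨i, rfl⟩
    refine mem_of_map f _ ?_ (h.2.le (Submodule.subset_span ⟨i, rfl⟩))
    rintro _ (⟨γ, a, j, rfl⟩ | ⟨i, rfl⟩)
    · exact ⟨_, lie_e (mem_Φ.1 a) j, (map_ct f _).symm⟩
    · exact ⟨_, lie_h i, (map_ct f _).symm⟩
  · rintro _ ⟨i, rfl⟩
    exact ⟨_, Submodule.subset_span ⟨i, rfl⟩, rfl⟩
  · rw [h.2]
    obtain ⟨γ, a, j, rfl⟩ | ⟨i, rfl⟩ := hX <;> rw [map_ct]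
    exacts [lie_e (mem_Φ.1 a) j, lie_h i]

theorem da_cont [Infinite K] {M : D.Mat K} (m : M ∈ gg D K) :
    ∃ S : Finset K, ∀ σ : K ≃ₐ[k] K, (∀ x ∈ S, σ x = x) → da T σ M = M := by
  classical
  obtain ⟨L, hL, e⟩ := T.cont
  let β := Module.finBasis k L
  refine ⟨Finset.univ.image (fun i => (β i : K)) ∪
    Finset.univ.image fun a : Fin D.n × Fin D.n => M a.1 a.2, fun σ h => ?_⟩
  refine (da_map (e σ fun x hx => ?_) m).trans (Matrix.ext fun i j => h _
    (Finset.mem_union_right _ (Finset.mem_image_of_mem _ (Finset.mem_univ (i, j)))))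
  have : σ.toLinearMap ∘ₗ L.val.toLinearMap = L.val.toLinearMap :=
    β.ext fun i => h _ (Finset.mem_union_left _ (Finset.mem_image_of_mem _ (Finset.mem_univ i)))
  exact DFunLike.congr_fun this ⟨x, hx⟩

/-- the adjoint representation in a basis -/
noncomputable def rho {m : ℕ} (b : Module.Basis (Fin m) K (gg D K)) :
    D.grp K →* Matrix (Fin m) (Fin m) K where
  toFun g := LinearMap.toMatrix b b ((Ad g.1).restrict (ad_gg g))
  map_one' := by
    rw [← LinearMap.toMatrix_id b]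
    exact congrArg _ (LinearMap.ext fun v => Subtype.ext (by simp [Ad_apply]))
  map_mul' g h := by
    rw [← LinearMap.toMatrix_comp b b b]
    exact congrArg _ (LinearMap.ext fun v => Subtype.ext (Ad_mul _ _ _))

theorem rho_apply {m : ℕ} (b : Module.Basis (Fin m) K (gg D K)) (g : D.grp K) (i j : Fin m) :
    rho b g i j = b.repr ⟨_, ad_gg g _ (b j).2⟩ i := LinearMap.toMatrix_apply ..

theorem sum_rep {m : ℕ} (b : Module.Basis (Fin m) K (gg D K)) (v : gg D K) :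
    v.1 = ∑ i, b.repr v i • (b i).1 :=
  (congrArg Subtype.val (b.sum_repr v)).symm.trans (by
    simp only [AddSubmonoidClass.coe_finset_sum, SetLike.val_smul])

theorem ex_hom {G : Type} [Group G] {m : ℕ} (ρ : G →* Matrix (Fin m) (Fin m) K)
    (h : ∀ g i j, ∃ x : k, algebraMap k K x = ρ g i j) :
    ∃ r : G →* Matrix (Fin m) (Fin m) k, ∀ g, (r g).map (algebraMap k K) = ρ g := by
  choose r hr using h
  have hr' : ∀ γ, (of (r γ)).map (algebraMap k K) = ρ γ := fun γ => Matrix.ext (hr γ)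
  have inj := Matrix.map_injective (m := Fin m) (n := Fin m) (algebraMap k K).injective
  refine ⟨⟨⟨fun γ => of (r γ), inj ?_⟩, fun γ δ => inj ?_⟩, hr'⟩
  · simp only [hr', map_one, Matrix.map_one _ (map_zero _) (map_one _)]
  · simp only [Matrix.map_mul, hr', map_mul]

theorem kfx (hI : IRR) : KFX := by
  intro k K _ _ _ _ _ D _ T ε π d o F hF
  haveI : CharZero K := charZero_of_injective_algebraMap (algebraMap k K).injective
  haveI : Algebra.IsAlgebraic ℚ K := Algebra.IsAlgebraic.trans ℚ k K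
  have hK : Nonempty (K →+* ℂ) := ⟨(IsAlgClosed.lift : K →ₐ[ℚ] ℂ)⟩
  have hS := span_gn (D := D) hI hK
  have hB := (hI D K hK).1
  have h3 : ∀ σ, ∀ M ∈ gg D K, da T σ M ∈ gg D K := fun σ M m => (da_sm σ).ind _ (by
    rintro _ ⟨y, δ, a, rfl⟩
    obtain ⟨δ', c, a', e⟩ := Opw.sr o σ a
    rw [da_ad σ y (ee_gg a.mem), da_ee a.mem a'.mem e]
    exact ad_gg _ _ (Submodule.smul_mem _ _ (ee_gg a'.mem))) (hS ▸ m)
  have sl : Sl ⊤ fun σ (M : gg D K) => (⟨_, h3 σ _ M.2⟩ : gg D K) :=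
    ⟨fun σ _ v w => Subtype.ext (da_add T σ _ _), fun σ _ c v => Subtype.ext (da_smul T σ _ _),
      fun σ _ τ _ v => Subtype.ext (da_mul σ τ v.2),
      fun v => (da_cont v.2).imp fun _ h σ _ e => Subtype.ext (h σ e)⟩
  obtain ⟨m, b, hb⟩ : ∃ (m : ℕ) (b : Module.Basis (Fin m) K (gg D K)),
      ∀ i σ, da T σ (b i) = b i := (sl.basis (Fintype.card_fin _)).elim fun b hb =>
    ⟨_, b, fun i σ => congrArg Subtype.val (hb i σ trivial)⟩
  have rep : ∀ σ (v w : gg D K) l, da T σ v = w → σ (b.repr v l) = b.repr w l := fun σ v w l e => by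
    have : w = ∑ i, σ (b.repr v i) • b i := Subtype.ext (by
      rw [← e, sum_rep b v, (da_sm σ).sum]
      simp only [da_smul, hb, AddSubmonoidClass.coe_finset_sum, SetLike.val_smul])
    rw [this]
    exact (congrFun (b.repr_sum_self fun i => σ (b.repr v i)) l).symm
  have hbF : ∀ j i l, (b j).1 i l ∈ F := fun j i l => fixed_sub F fun σ s => by
    have h := hF σ ((IntermediateField.mem_fixingSubgroup_iff _ _).1 s)
    exact congrFun (congrFun ((da_map (Opw.std o h.1 h.2) (b j).2).symm.trans (hb j σ)) i) l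
  obtain ⟨b0, e0⟩ : ∃ b0 : Fin m → D.Mat F, ∀ j, (b0 j).map (algebraMap F K) = b j :=
    ⟨fun j => of fun i l => ⟨_, hbF j i l⟩, fun _ => rfl⟩
  have e1 : bm (algebraMap F K) b0 = (gg D K).subtype ∘ b := funext e0
  choose M hM using fun l i j => fixed_top (k := k) (c := b.repr ⟨_, hB _ (b i).2 _ (b j).2⟩ l)
    fun σ => rep σ ⟨_, hB _ (b i).2 _ (b j).2⟩ ⟨_, hB _ (b i).2 _ (b j).2⟩ l
      ((da_lie hS σ (b i).2 (b j).2).trans (by rw [hb, hb]))
  have eqv : ∀ σ g, rho b (T.a σ g) = (rho b g).map σ := fun σ g => Matrix.ext fun i j => by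
    rw [map_apply, rho_apply, rho_apply]
    exact (rep σ ⟨_, ad_gg g _ (b j).2⟩ ⟨_, ad_gg _ _ (b j).2⟩ i
      ((da_ad σ g (b j).2).trans (congrArg _ (hb j σ)))).symm
  obtain ⟨r, hr⟩ := ex_hom (k := k) ((rho b).comp T.fix.subtype) fun γ i j => fixed_top fun σ =>
    (congrFun (congrFun (eqv σ γ.1) i) j).symm.trans (by rw [γ.2 σ]; rfl)
  refine ⟨m, b0, fun l => of (M l), rho b, r, bs_of_map (algebraMap F K) ⟨?_, ?_⟩,
    fun i j => Matrix.map_injective (algebraMap F K).injective ?_, fun g j => ?_, eqv, hr⟩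
  · exact e1 ▸ b.linearIndependent.map' _ (Submodule.ker_subtype _)
  · rw [e1, Set.range_comp, Submodule.span_image, b.span_eq, Submodule.map_top,
      Submodule.range_subtype]
  · simp only [map_sum_smul, Matrix.map_sub _ (map_sub _), Matrix.map_mul, e0, of_apply,
      ← IsScalarTower.algebraMap_apply, hM]
    exact sum_rep b ⟨_, hB _ (b i).2 _ (b j).2⟩
  · simp only [rho_apply, e1]
    exact sum_rep b ⟨_, ad_gg g _ (b j).2⟩

end Vale.Agent.P011UT9
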