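import Vale.Agent.P011UT4.Defs
import Vale.Agent.P011UC.Lie
import Vale.Agent.P011LD.Desc

/-!
Rational curves in the torus and integrality.
-/

set_option autoImplicit false
set_option linter.all false

namespace Vale.Agent.P011UT9

open Matrix Polynomial Vale.Agent.P011L Vale.Agent.P183CH Vale.Agent.P183CH.Chev
  Vale.Agent.P011U Vale.Agent.P011UGA Vale.Agent.P011UT4

section

variable {k F : Type} [Field k] [Field F] [Algebra k F]

theorem ev_map (p : k[X]) (q : k) :
    (p.map (algebraMap k F)).eval (algebraMap k F q) = algebraMap k F (p.eval q) := by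
  rw [eval_map, eval₂_at_apply]

theorem exists_ret : ∃ p : F[X] → k[X], ∀ Q (q c : k),
    Q.eval (algebraMap k F q) = algebraMap k F c → (p Q).eval q = c := by
  obtain ⟨p, hp⟩ := (Algebra.linearMap k F).exists_leftInverse_of_injective
    (LinearMap.ker_eq_bot.2 (algebraMap k F).injective)
  have h : ∀ Q : F[X], ∃ P : k[X], ∀ q, P.eval q = p (Q.eval (algebraMap k F q)) := fun Q => by
    induction Q using Polynomial.induction_on' with
    | add a b ha hb =>
      obtain ⟨a', ha⟩ := ha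
      obtain ⟨b', hb⟩ := hb
      exact ⟨a' + b', fun q => by rw [eval_add, eval_add, map_add, ha, hb]⟩
    | monomial n a => exact ⟨monomial n (p a), fun q => by
        rw [eval_monomial, eval_monomial, ← map_pow, mul_comm a, ← Algebra.smul_def, map_smul,
          smul_eq_mul, mul_comm]⟩
  choose f hf using h
  exact ⟨f, fun Q q c e => by rw [hf, e]; exact DFunLike.congr_fun hp c⟩

theorem coeff_prod {ι : Type} (s : Finset ι) (a : ι → F) (n : ι → ℕ) :
    (∏ i ∈ s, (1 + C (a i) * X) ^ n i).coeff 0 = 1 ∧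
      (∏ i ∈ s, (1 + C (a i) * X) ^ n i).coeff 1 = ∑ i ∈ s, n i * a i := by
  classical
  have h : ∀ (a : F) (n : ℕ), ((1 + C a * X) ^ n).coeff 0 = 1 ∧
      ((1 + C a * X) ^ n).coeff 1 = n * a := fun a n => by
    induction n with
    | zero => simp [coeff_one]
    | succ n ih =>
      rw [pow_succ, mul_coeff_zero, mul_coeff_one, ih.1, ih.2]
      simp [coeff_one, add_mul, add_comm]
  induction s using Finset.induction_on with
  | empty => simp [coeff_one]
  | insert i s hi ih =>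
    rw [Finset.prod_insert hi, Finset.sum_insert hi, mul_coeff_zero, mul_coeff_one, ih.1, ih.2,
      (h _ _).1, (h _ _).2]
    simp [add_comm]

variable [FiniteDimensional k F]

theorem exists_d [IsGalois k F] (x : F) :
    ∃ d : k[X], d.map (algebraMap k F) = ∏ σ : F ≃ₐ[k] F, (1 + C (σ x) * X) := by
  refine (mem_lifts _).1 ((lifts_iff_coeff_lifts _).2 fun n =>
    (IsGalois.mem_range_algebraMap_iff_fixed _).2 fun τ => ?_)
  rw [show ∀ y, τ y = (τ : F →+* F) y from fun _ => rfl, ← coeff_map, Polynomial.map_prod,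
    ← Equiv.prod_comp (Equiv.mulLeft τ) fun σ : F ≃ₐ[k] F => 1 + C (σ x) * X]
  simp

theorem nrm_pow {r : ℕ} (ε : (F ≃ₐ[k] F) →* ℤˣ) (π : (F ≃ₐ[k] F) →* Equiv.Perm (Fin r)) (j : Fin r)
    (w : Fˣ) (y : Fin r → ℤ) : ∏ i, nrm ε π j w i ^ y i =
      ∏ σ : F ≃ₐ[k] F, Units.map (σ : F →* F) w ^ ((ε σ : ℤ) * y (π σ j)) := by
  simp only [nrm, Finset.prod_apply, ← Finset.prod_zpow]
  rw [Finset.prod_comm]
  refine Finset.prod_congr rfl fun σ _ => ?_
  rw [Finset.prod_eq_single (π σ j) (fun i _ e => by rw [Pi.mulSingle_eq_of_ne e, _root_.one_zpow])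
    (by simp), Pi.mulSingle_eq_same, _root_.zpow_mul]

theorem eval_Q {x : F} {d : k[X]} (hd : d.map (algebraMap k F) = ∏ σ : F ≃ₐ[k] F, (1 + C (σ x) * X))
    {N : ℕ} {n : (F ≃ₐ[k] F) → ℤ} (hn : ∀ σ, 0 ≤ N + n σ) {q : k} {w : Fˣ}
    (hw : (w : F) = 1 + algebraMap k F q * x) :
    (∏ σ : F ≃ₐ[k] F, (1 + C (σ x) * X) ^ (N + n σ).toNat).eval (algebraMap k F q) =
      algebraMap k F ((d ^ N).eval q) *
        (∏ σ : F ≃ₐ[k] F, Units.map (σ : F →* F) w ^ n σ : Fˣ) := by
  rw [← ev_map, Polynomial.map_pow, hd, ← Finset.prod_pow, eval_prod, eval_prod,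
    Units.coe_prod, ← Finset.prod_mul_distrib]
  refine Finset.prod_congr rfl fun σ _ => ?_
  have e : (1 + C (σ x) * X).eval (algebraMap k F q) = ((Units.map (σ : F →* F) w : Fˣ) : F) := by
    rw [eval_add, eval_one, eval_mul, eval_C, eval_X, mul_comm]
    exact ((congrArg σ hw).trans (by rw [map_add, map_one, map_mul, σ.commutes])).symm
  rw [eval_pow, eval_pow, e, ← Units.val_pow_eq_pow_val, ← Units.val_pow_eq_pow_val,
    ← Units.val_mul, ← zpow_natCast, ← zpow_natCast, Int.toNat_of_nonneg (hn σ), _root_.zpow_add]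

end

variable {k K : Type} [Field k] [Field K] [Algebra k K] {D : Chev} {T : Tw k (D.grp K)}
  {F : IntermediateField k K} {m : ℕ} {b : Fin m → D.Mat F} {M : Fin m → Matrix (Fin m) (Fin m) k}
  {ρ : D.grp K →* Matrix (Fin m) (Fin m) K} {r : T.fix →* Matrix (Fin m) (Fin m) k}

/-- the weights of the adjoint action on the matrices -/
def wy (D : Chev) (e : Fin D.n × Fin D.n) (i : Fin D.r) : ℤ := D.μ i e.1 - D.μ i e.2

theorem key (h : Kf T F b M ρ r) : ∃ L : Fin m → Fin D.n × Fin D.n → F,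
    (∀ i j, ∑ e, b j e.1 e.2 * L i e = if i = j then 1 else 0) ∧
    ∀ (γ : T.fix) s, γ.1 = fm D (algebraMap F K) (hT D F s) → ∀ i j, algebraMap k F (r γ i j) =
      ∑ e, (∏ l, s l ^ wy D e l : Fˣ) * (b j e.1 e.2 * L i e) := by
  obtain ⟨p, hp⟩ := (Fintype.linearCombination F b).exists_leftInverse_of_injective
    (LinearMap.ker_eq_bot.2 (linearIndependent_iff_injective_fintypeLinearCombination.1 h.bs.1))
  have h1 : ∀ i j, ∑ e : Fin D.n × Fin D.n, b j e.1 e.2 * p (single e.1 e.2 1) i =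
      if i = j then 1 else 0 := fun i j => by
    have h2 := congrFun (DFunLike.congr_fun hp (Pi.single j 1)) i
    rw [LinearMap.comp_apply, Fintype.linearCombination_apply_single, one_smul,
      matrix_eq_sum_single (b j)] at h2
    rw [Fintype.sum_prod_type, ← Pi.single_apply, ← show _ = (Pi.single j 1 : Fin m → F) i from h2]
    simp only [map_sum, Finset.sum_apply]
    refine Finset.sum_congr rfl fun a _ => Finset.sum_congr rfl fun c _ => ?_
    rw [← smul_eq_mul, ← Pi.smul_apply, ← map_smul, smul_single, smul_eq_mul, mul_one]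
  refine ⟨_, h1, fun γ s hs i j => (algebraMap F K).injective ?_⟩
  have h2 : ∀ e : Fin D.n × Fin D.n, ∑ l, ρ γ.1 l j * algebraMap F K (b l e.1 e.2) =
      algebraMap F K ((∏ l, s l ^ wy D e l : Fˣ) * b j e.1 e.2) := fun e => by
    have h3 := congrFun (congrFun (h.rp γ.1 j) e.1) e.2
    rw [Matrix.sum_apply] at h3
    refine h3.symm.trans ?_
    have h4 : γ.1.1⁻¹.1 = (fm D (algebraMap F K) (hT D F s⁻¹)).1.1 := by
      rw [hs, map_inv, map_inv]; rfl
    rw [Ad_apply, h4, hs, fm_val, fm_val, hT_val, hT_val, bm, ← Matrix.map_mul, ← Matrix.map_mul,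
      map_apply, mul_diagonal, diagonal_mul, mul_right_comm, ← Units.val_mul,
      ← Finset.prod_mul_distrib]
    simp only [wy, _root_.zpow_sub, Pi.inv_apply, _root_.inv_zpow]
  rw [← IsScalarTower.algebraMap_apply, show algebraMap k K (r γ i j) = ρ γ.1 i j from
    congrFun (congrFun (h.rr γ) i) j, map_sum]
  simp only [← mul_assoc, map_mul (algebraMap F K) (_ * _), ← h2, Finset.sum_mul]
  rw [Finset.sum_comm]
  simp only [mul_assoc, ← Finset.mul_sum, ← map_mul, ← map_sum, h1]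
  simp [apply_ite]

theorem int0 (h : Kf T F b M ρ r) (O : Subring k) (γ : T.fix) (s : Fin D.r → Fˣ)
    (hs : γ.1 = fm D (algebraMap F K) (hT D F s))
    (hi : ∀ y : Fin D.r → ℤ, IsIntegral O ((∏ l, s l ^ y l : Fˣ) : F)) : IsIntegral O (r γ) := by
  obtain ⟨L, -, h1⟩ := key h
  choose g g1 g2 using fun e => hi (wy D e)
  refine ⟨∏ e, g e, monic_prod_of_monic _ _ fun e _ => g1 e, ?_⟩
  have h2 : ∀ (P : O[X]) i j, algebraMap k F (aeval (r γ) P i j) =
      ∑ e, aeval ((∏ l, s l ^ wy D e l : Fˣ) : F) P * (b j e.1 e.2 * L i e) := fun P i j => by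
    induction P using Polynomial.induction_on' with
    | add a b ha hb => simp only [map_add, Matrix.add_apply, ha, hb, add_mul, Finset.sum_add_distrib]
    | monomial n a =>
      have h3 := h1 (γ ^ n) (s ^ n) (by rw [map_pow, map_pow, ← hs]; rfl) i j
      rw [aeval_monomial, ← Algebra.smul_def, Matrix.smul_apply, ← map_pow, Algebra.smul_def,
        map_mul, h3, Finset.mul_sum, ← IsScalarTower.algebraMap_apply]
      refine Finset.sum_congr rfl fun e _ => ?_
      rw [aeval_monomial, mul_assoc, ← Units.val_pow_eq_pow_val, ← Finset.prod_pow]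
      simp only [Pi.pow_apply, ← zpow_natCast, ← _root_.zpow_mul, mul_comm]
  refine Matrix.ext fun i j => (algebraMap k F).injective ((h2 _ i j).trans ?_)
  rw [Matrix.zero_apply, map_zero]
  refine Finset.sum_eq_zero fun e _ => ?_
  rw [map_prod, Finset.prod_eq_zero (Finset.mem_univ e) (g2 e), zero_mul]

theorem int : P011UT4.INT := by
  intro k K _ _ _ _ _ D _ T F m b M ρ r h _ ε π j O w γ h1 h2 h3
  have h4 : ∀ y : Fin D.r → ℤ, IsIntegral O ((∏ l, nrm ε π j w l ^ y l : Fˣ) : F) := fun y => by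
    rw [nrm_pow, Units.coe_prod]
    refine IsIntegral.prod _ fun σ _ => ?_
    generalize (ε σ : ℤ) * y (π σ j) = z
    rcases z with z | z
    · simpa using (h1.map σ).pow z
    · simpa using (h2.map σ).pow (z + 1)
  refine ⟨int0 h O γ _ h3 h4, int0 h O γ⁻¹ (nrm ε π j w)⁻¹ ?_ fun y => ?_⟩
  · rw [map_inv, map_inv, ← h3]
    rfl
  · simpa using h4 (-y)

theorem crv : CRV := by
  intro k K _ _ _ _ _ D _ T F m b M ρ r h _ _ _ ε π j hex
  obtain ⟨L, l1, l2⟩ := key h
  obtain ⟨p, hp⟩ := exists_ret (k := k) (F := F)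
  let n : Fin D.n × Fin D.n → (F ≃ₐ[k] F) → ℤ := fun e σ => (ε σ : ℤ) * wy D e (π σ j)
  obtain ⟨N, h0, hN⟩ : ∃ N : ℕ, N ≠ 0 ∧ ∀ e σ, 0 ≤ N + n e σ := by
    obtain ⟨N, hN⟩ := (Set.finite_range fun x : _ × _ => (n x.1 x.2).natAbs).bddAbove
    exact ⟨N + 1, by omega, fun e σ => by
      have : (n e σ).natAbs ≤ N := hN ⟨(e, σ), rfl⟩
      omega⟩
  have h1 : ∀ x : F, ∃ (d : k[X]) (P : Matrix (Fin m) (Fin m) k[X]),
      d.map (algebraMap k F) = ∏ σ : F ≃ₐ[k] F, (1 + C (σ x) * X) ∧ Crv r (d ^ N) P ∧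
      (∀ q, (d ^ N).eval q ≠ 0 → ∃ w : Fˣ, (w : F) = 1 + algebraMap k F q * x) ∧
        ∀ (q : k) (w : Fˣ) γ, (w : F) = 1 + algebraMap k F q * x → Nr ε π j w γ →
          (d ^ N).eval q • r γ = P.map (eval q) := fun x => by
    obtain ⟨d, hd⟩ := exists_d (k := k) x
    have h2 : ∀ (q : k) (w : Fˣ) γ, (w : F) = 1 + algebraMap k F q * x → Nr ε π j w γ →
        (d ^ N).eval q • r γ = (of fun a c => p (∑ e, (∏ σ : F ≃ₐ[k] F, (1 + C (σ x) * X) ^
          (N + n e σ).toNat) * C (b c e.1 e.2 * L a e))).map (eval q) := fun q w γ hw hγ =>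
      Matrix.ext fun a c => (hp _ q _ (by
        rw [Matrix.smul_apply, smul_eq_mul, map_mul, l2 γ _ hγ, eval_finset_sum, Finset.mul_sum]
        exact Finset.sum_congr rfl fun e _ => by
          rw [eval_mul, eval_C, eval_Q hd (hN e) hw, nrm_pow, mul_assoc])).symm
    have h3 : ∀ q, (d ^ N).eval q ≠ 0 → ∃ w : Fˣ, (w : F) = 1 + algebraMap k F q * x :=
      fun q hq => ⟨Units.mk0 _ fun c => hq ((algebraMap k F).injective (by
        rw [← ev_map, Polynomial.map_pow, hd, eval_pow, eval_prod,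
          Finset.prod_eq_zero (Finset.mem_univ 1) (by
            rw [eval_add, eval_one, eval_mul, eval_C, eval_X, mul_comm]; exact c), zero_pow h0,
          map_zero])), rfl⟩
    have h4 : (d ^ N).eval 0 = 1 := (algebraMap k F).injective (by
      rw [← ev_map, Polynomial.map_pow, hd]
      simp [eval_prod])
    refine ⟨d, _, hd, ⟨h4, ?_, fun q hq => ?_⟩, h3, h2⟩
    · rw [← h2 0 1 1 (by simp) (by simp [Nr, nrm]), h4, one_smul, map_one]
    · obtain ⟨w, hw⟩ := h3 q hq
      obtain ⟨γ, hγ⟩ := hex w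
      exact ⟨γ, h2 q w γ hw hγ⟩
  refine ⟨fun x => let ⟨d, P, a1, a2, _, a3⟩ := h1 x; ⟨d, N, P, a1, a2, a3⟩, ?_⟩
  by_contra hc
  have rh := (rt_simple (D := D) j).1.rt.rh
  obtain ⟨v, hv⟩ := (Submodule.mem_span_range_iff_exists_fun F).1
    (h.bs.2.ge (P011UC.lie_e (K := F) (rt_simple (D := D) j).1.rt (RS.In_univ _)))
  obtain ⟨e₀, he₀⟩ : ∃ e : Fin D.n × Fin D.n, ct F (D.EE (D.α j) 1) e.1 e.2 ≠ 0 := by
    by_contra c
    exact one_ne_zero (rh.prim.eq_zero (c := (1 : F)) (Matrix.ext fun a a' => by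
      simpa using not_not.1 fun e => c ⟨(a, a'), e⟩))
  have hw : ∀ e : Fin D.n × Fin D.n, ct F (D.EE (D.α j) 1) e.1 e.2 ≠ 0 → wy D e = D.A j :=
    fun e he => funext fun i => by
      have := congrFun (Dg.ct (k := F) rh.dg e.1 e.2 he) i
      rw [Pi.add_apply, α_pr] at this
      exact sub_eq_iff_eq_add'.2 this
  have hb : ∀ e : Fin D.n × Fin D.n, ∑ c, v c * b c e.1 e.2 = ct F (D.EE (D.α j) 1) e.1 e.2 :=
    fun e => by rw [← hv, Matrix.sum_apply]; rfl
  obtain ⟨a, ha⟩ : ∃ a, v a ≠ 0 := by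
    by_contra c
    exact he₀ ((hb e₀).symm.trans (Finset.sum_eq_zero fun a _ => by
      rw [not_not.1 fun e => c ⟨a, e⟩, zero_mul]))
  have eig : ∀ (γ : T.fix) s, γ.1 = fm D (algebraMap F K) (hT D F s) →
      ∑ c, algebraMap k F (r γ a c) * v c = (∏ l, s l ^ wy D e₀ l : Fˣ) * v a := fun γ s hs => by
    have h2 : ∀ e : Fin D.n × Fin D.n, ∑ c, (∏ l, s l ^ wy D e l : Fˣ) * (b c e.1 e.2 * L a e) *
        v c = ∑ c, (∏ l, s l ^ wy D e₀ l : Fˣ) * (b c e.1 e.2 * L a e) * v c := fun e => by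
      have h3 : ∀ u : F, ∑ c, u * (b c e.1 e.2 * L a e) * v c =
          u * L a e * ct F (D.EE (D.α j) 1) e.1 e.2 := fun u => by
        rw [← hb, Finset.mul_sum]
        exact Finset.sum_congr rfl fun c _ => by ring
      rw [h3, h3]
      by_cases c : ct F (D.EE (D.α j) 1) e.1 e.2 = 0
      · rw [c, mul_zero, mul_zero]
      · rw [hw e c, hw e₀ he₀]
    simp only [l2 γ s hs, Finset.sum_mul]
    rw [Finset.sum_comm, Finset.sum_congr rfl fun e _ => h2 e, Finset.sum_comm]
    simp only [← Finset.sum_mul, ← Finset.mul_sum, l1]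
    simp
  have h5 : ∀ x : F, ∑ σ : F ≃ₐ[k] F, (n e₀ σ : F) * σ x = 0 := fun x => by
    obtain ⟨d, P, a1, a2, a3, a4⟩ := h1 x
    have h6 : P.map (coeff · 1) = (d ^ N).coeff 1 • 1 := not_not.1 fun c => hc ⟨_, _, a2, c⟩
    have h7 : (d ^ N) ≠ 0 := fun c => by simpa [c] using a2.1
    have h8 : ∑ c, (P a c).map (algebraMap k F) * C (v c) =
        (∏ σ : F ≃ₐ[k] F, (1 + C (σ x) * X) ^ (N + n e₀ σ).toNat) * C (v a) := by
      refine eq_of_infinite_eval_eq _ _ ((((d ^ N).finite_setOf_isRoot h7).infinite_compl.image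
        (algebraMap k F).injective.injOn).mono ?_)
      rintro _ ⟨q, hq, rfl⟩
      obtain ⟨w, hw⟩ := a3 q hq
      obtain ⟨γ, hγ⟩ := hex w
      rw [Set.mem_setOf_eq, eval_mul, eval_C, eval_Q a1 (hN e₀) hw, ← nrm_pow, mul_assoc,
        ← eig γ _ hγ, eval_finset_sum, Finset.mul_sum]
      refine Finset.sum_congr rfl fun c _ => ?_
      rw [eval_mul, eval_C, ev_map, ← mul_assoc, ← map_mul]
      exact congrArg (algebraMap k F · * v c) (congrFun (congrFun (a4 q w γ hw hγ) a) c).symm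
    have h9 := congrArg (coeff · 1) h8
    have h10 : ∀ c, (P a c).coeff 1 = if a = c then (d ^ N).coeff 1 else 0 := fun c =>
      (congrFun (congrFun h6 a) c).trans (by simp [one_apply])
    simp only [finset_sum_coeff, coeff_mul_C, coeff_map, h10, (coeff_prod _ _ _).2,
      apply_ite (algebraMap k F), map_zero, ite_mul, zero_mul, Finset.sum_ite_eq, Finset.mem_univ,
      if_true] at h9
    rw [← coeff_map, Polynomial.map_pow, a1, ← Finset.prod_pow, (coeff_prod _ _ _).2] at h9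
    have h11 := sub_eq_zero.2 (mul_right_cancel₀ ha h9).symm
    rw [← Finset.sum_sub_distrib] at h11
    refine (Finset.sum_congr rfl fun σ _ => ?_).trans h11
    rw [← sub_mul, ← Int.cast_natCast, Int.toNat_of_nonneg (hN e₀ σ)]
    simp
  have h6 := P011LD.dedekind ⊤ (fun σ : F ≃ₐ[k] F => σ)
    (fun σ τ e => AlgEquiv.ext fun x => e x trivial) _ _ (fun x _ => h5 x) 1 (Finset.mem_univ _)
  have : CharZero F := charZero_of_injective_algebraMap (algebraMap k F).injective
  simp [n, hw e₀ he₀, Chev.diag] at h6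

end Vale.Agent.P011UT9
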