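import Vale.Agent.P011UX.Cur
import Vale.Agent.P011L.IF

/-!
First derivatives of polynomial curves and the differential of a twisted Galois action.
-/

set_option autoImplicit false
set_option linter.all false

namespace Vale.Agent.P011UT9

open Matrix Polynomial Vale.Agent.P011L Vale.Agent.P011UX

variable {k K J : Type} [Field k] [Field K] [Algebra k K] [Fintype J] [DecidableEq J]

/-- `f` is a polynomial function with the derivative `b` at zero. -/
def D1 (f : K → K) (b : K) : Prop := ∃ q : K[X], (∀ s, f s = q.eval s) ∧ q.coeff 1 = b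

section

variable {f g : K → K} {a b : K}

theorem D1.uniq [Infinite K] (h : D1 f a) (h' : D1 f b) : a = b := by
  obtain ⟨p, h1, rfl⟩ := h
  obtain ⟨q, h2, rfl⟩ := h'
  rw [Polynomial.funext fun s => (h1 s).symm.trans (h2 s)]

theorem D1.const (c : K) : D1 (fun _ => c) 0 := ⟨C c, by simp, by simp⟩

theorem D1.add (h : D1 f a) (h' : D1 g b) : D1 (fun s => f s + g s) (a + b) := by
  obtain ⟨p, h1, rfl⟩ := h
  obtain ⟨q, h2, rfl⟩ := h'
  exact ⟨p + q, fun s => by simp only [h1, h2, eval_add], coeff_add _ _ _⟩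

theorem D1.mul (h : D1 f a) (h' : D1 g b) : D1 (fun s => f s * g s) (a * g 0 + f 0 * b) := by
  obtain ⟨p, h1, rfl⟩ := h
  obtain ⟨q, h2, rfl⟩ := h'
  refine ⟨p * q, fun s => by simp only [h1, h2, eval_mul], ?_⟩
  rw [h1, h2, ← coeff_zero_eq_eval_zero, ← coeff_zero_eq_eval_zero, coeff_mul,
    Finset.Nat.antidiagonal_succ]
  simp [add_comm]

theorem D1.sum {ι : Type} (s : Finset ι) {f : ι → K → K} {a : ι → K} (h : ∀ i, D1 (f i) (a i)) :
    D1 (fun t => ∑ i ∈ s, f i t) (∑ i ∈ s, a i) := by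
  choose q h1 h2 using h
  exact ⟨∑ i ∈ s, q i, fun t => by simp [h1, eval_finset_sum], by simp [h2]⟩

theorem D1.semi (h : D1 f a) (σ : K ≃ₐ[k] K) : D1 (fun s => σ (f (σ.symm s))) (σ a) := by
  obtain ⟨p, h1, rfl⟩ := h
  refine ⟨p.map (σ : K →+* K), fun s => ?_, coeff_map _ _⟩
  conv_rhs => rw [← σ.apply_symm_apply s]
  simp only [h1]
  exact (eval_map_apply (σ : K →+* K) _).symm

theorem D1.scale (h : D1 f a) (c : K) : D1 (fun s => f (c * s)) (c * a) := by
  obtain ⟨p, h1, rfl⟩ := h
  exact ⟨p.comp (C c * X), fun s => by simp [h1, eval_comp], by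
    rw [comp_C_mul_X_coeff, pow_one, mul_comm]⟩

end

/-- `f` is a polynomial curve with the tangent vector `B` at zero. -/
def DM (f : K → Matrix J J K) (B : Matrix J J K) : Prop :=
  ∀ i j, D1 (fun s => f s i j) (B i j)

section

variable {f g : K → Matrix J J K} {A B : Matrix J J K}

theorem DM.uniq [Infinite K] (h : DM f A) (h' : DM f B) : A = B :=
  Matrix.ext fun i j => (h i j).uniq (h' i j)

theorem DM.const (A : Matrix J J K) : DM (fun _ => A) 0 := fun _ _ => D1.const _

theorem DM.mul (h : DM f A) (h' : DM g B) : DM (fun s => f s * g s) (A * g 0 + f 0 * B) :=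
  fun i j => by
  simpa only [mul_apply, Matrix.add_apply, ← Finset.sum_add_distrib] using
    D1.sum Finset.univ fun l => (h i l).mul (h' l j)

theorem DM.conj (h : DM f A) (P Q : Matrix J J K) : DM (fun s => P * f s * Q) (P * A * Q) := by
  simpa using ((DM.const P).mul h).mul (DM.const Q)

theorem DM.semi (h : DM f A) (σ : K ≃ₐ[k] K) : DM (fun s => (f (σ.symm s)).map σ) (A.map σ) :=
  fun i j => (h i j).semi σ

theorem DM.scale (h : DM f A) (c : K) : DM (fun s => f (c * s)) (c • A) :=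
  fun i j => (h i j).scale c

theorem DM.mv (h : DM f A) (p : MvPolynomial (J × J) K) :
    D1 (fun s => ev (f s) p) (dv p (f 0) A) := by
  choose q h1 h2 using h
  have e : ∀ s, (of q).map (aeval s : K[X] →ₐ[K] K) = f s := fun s =>
    Matrix.ext fun i j => by simpa using (h1 i j s).symm
  refine ⟨ev (of q) p, fun s => (congrArg (ev · p) (e s).symm).trans ((map_ev _ _ p).symm.trans
    (congrFun (coe_aeval_eq_eval s) _)), ?_⟩
  have h3 := congrArg (aeval (0 : K) : K[X] →ₐ[K] K) (der_ev (of q) p)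
  rw [map_dv, e, ← coeff_zero_eq_aeval_zero, coeff_derivative] at h3
  simp only [zero_add, Nat.cast_zero, mul_one] at h3
  rw [h3]
  congr 1
  ext i j
  simp [← coeff_zero_eq_eval_zero, coeff_derivative, h2]

theorem DM.lin (h : DM f A) (p : MvPolynomial (J × J) K) (M : Matrix J J K) :
    D1 (fun s => dv p M (f s)) (dv p M A) := by
  simpa only [dv, zero_mul, zero_add] using
    D1.sum Finset.univ fun e : J × J => (D1.const (ev M (MvPolynomial.pderiv e p))).mul (h e.1 e.2)

end

variable {H : Subgroup (GL J K)} (T : Tw k H)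

/-- The differential of the action. -/
noncomputable def da (σ : K ≃ₐ[k] K) (X : Matrix J J K) : Matrix J J K :=
  of fun i j => dv (T.pol σ i j).choose 1 (X.map σ)

theorem da_add (σ : K ≃ₐ[k] K) (X Y : Matrix J J K) : da T σ (X + Y) = da T σ X + da T σ Y :=
  Matrix.ext fun i j => by
    rw [da, Matrix.map_add _ (map_add σ)]
    exact dv_add _ _ _ _

theorem da_smul (σ : K ≃ₐ[k] K) (c : K) (X : Matrix J J K) :
    da T σ (c • X) = σ c • da T σ X := Matrix.ext fun i j => by
  have e : (c • X).map σ = σ c • X.map σ := Matrix.ext fun _ _ => map_mul σ _ _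
  rw [da, e]
  exact dv_smul _ _ _ _

theorem DM.da {f : K → Matrix J J K} {A : Matrix J J K} (h : DM f A) (σ : K ≃ₐ[k] K) :
    DM (fun s => da T σ (f (σ.symm s))) (da T σ A) := fun _ _ => (h.semi σ).lin _ _

/-- `g` is a curve in the group through the identity with the tangent vector `A`. -/
def Tg (g : K → H) (A : Matrix J J K) : Prop := g 0 = 1 ∧ DM (fun s => (g s).1.1) A

section

variable {g : K → H} {A B : Matrix J J K}

theorem Tg.uniq [Infinite K] (h : Tg g A) (h' : Tg g B) : A = B := h.2.uniq h'.2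

theorem Tg.act (h : Tg g A) (σ : K ≃ₐ[k] K) :
    Tg (fun s => T.a σ (g (σ.symm s))) (da T σ A) := by
  refine ⟨by simp only [map_zero, h.1, map_one], fun i j => ?_⟩
  have h1 := (h.2.semi σ).mv (T.pol σ i j).choose
  simp only [map_zero, h.1, OneMemClass.coe_one, Units.val_one,
    Matrix.map_one σ (map_zero σ) (map_one σ)] at h1
  exact (funext fun s => (T.pol σ i j).choose_spec _ : (fun s => (T.a σ (g (σ.symm s))).1.1 i j) =
    fun s => ev ((g (σ.symm s)).1.1.map σ) (T.pol σ i j).choose) ▸ h1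

theorem Tg.conj (h : Tg g A) (y : H) : Tg (fun s => y * g s * y⁻¹) (y.1.1 * A * y.1⁻¹.1) :=
  ⟨by simp only [h.1, mul_one, mul_inv_cancel], h.2.conj _ _⟩

theorem Tg.scale (h : Tg g A) (c : K) : Tg (fun s => g (c * s)) (c • A) :=
  ⟨by simp only [mul_zero, h.1], h.2.scale c⟩

variable [Infinite K]

theorem Tg.da_mul (h : Tg g A) (σ τ : K ≃ₐ[k] K) : da T (σ * τ) A = da T σ (da T τ A) :=
  (h.act T (σ * τ)).uniq (by
    simp only [map_mul, MulAut.mul_apply]
    exact (h.act T τ).act T σ)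

theorem Tg.da_conj (h : Tg g A) (σ : K ≃ₐ[k] K) (y : H) :
    da T σ (y.1.1 * A * y.1⁻¹.1) = (T.a σ y).1.1 * da T σ A * (T.a σ y).1⁻¹.1 :=
  ((h.conj y).act T σ).uniq (by
    simpa only [map_mul, map_inv] using (h.act T σ).conj (T.a σ y))

theorem Tg.da_map (h : Tg g A) {σ : K ≃ₐ[k] K} (e : ∀ g : H, (T.a σ g).1.1 = g.1.1.map σ) :
    da T σ A = A.map σ := (h.act T σ).2.uniq (by simpa only [e] using h.2.semi σ)

theorem Tg.da_lie (h : Tg g A) (h' : DM (fun s => (g s).1⁻¹.1) B) (σ : K ≃ₐ[k] K)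
    {Y : Matrix J J K} (e : ∀ y : H, da T σ (y.1.1 * Y * y.1⁻¹.1) =
      (T.a σ y).1.1 * da T σ Y * (T.a σ y).1⁻¹.1) :
    da T σ (A * Y - Y * A) = da T σ A * da T σ Y - da T σ Y * da T σ A := by
  have key : ∀ {g : K → H} {A Y Z : Matrix J J K}, Tg g A →
      DM (fun s => (g s).1.1 * Y * (g s).1⁻¹.1) Z → Z = A * Y - Y * A := fun {g A Y Z} a b => by
    have h1 := b.mul a.2
    have h2 := a.2.mul (DM.const Y)
    simp only [Units.inv_mul_cancel_right, a.1, OneMemClass.coe_one, Units.val_one, inv_one,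
      mul_one, one_mul, mul_zero, add_zero] at h1 h2
    exact eq_sub_of_add_eq (h1.uniq h2)
  have h1 := (h.2.mul (DM.const Y)).mul h'
  refine key (h.act T σ) ?_
  simpa only [e, key h h1] using h1.da T σ

end

end Vale.Agent.P011UT9
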